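import Vale.Agent.P013.Main

/-! Jacobsthal's conjectured bound away from near-primorial moduli (P013). -/

open Real Finset

namespace Vale.Agent.Results.P013.MissingPrimes

theorem result :
    (∃ c : ℝ, 0 < c ∧ ∃ C : ℝ, ∃ N : ℕ, ∀ n : ℕ, 1 < n → ∃ m : ℕ,
      (m:ℝ) ≤ C * (n.primeFactors.card : ℝ) ^ 2
          * Real.log (3 * (n.primeFactors.card : ℝ)) ^ N
          * Real.exp (-c * ∑ p ∈ (Finset.range (n.primeFactors.card + 1)).filter
              (fun p => p.Prime ∧ ¬ p ∣ n), Real.log p / p) ∧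
        ∀ a : ℤ, ∃ i ∈ Set.Ico a (a + (m:ℤ)), IsCoprime i (n:ℤ)) ∧
    (∃ C : ℝ, ∀ n : ℕ, 1 < n →
      C * Real.log (Real.log (3 * (n.primeFactors.card : ℝ)))
          ≤ ∑ p ∈ (Finset.range (n.primeFactors.card + 1)).filter
              (fun p => p.Prime ∧ ¬ p ∣ n), Real.log p / p →
      ∃ m : ℕ, (m:ℝ) ≤ C * (n.primeFactors.card : ℝ) ^ 2 ∧
        ∀ a : ℤ, ∃ i ∈ Set.Ico a (a + (m:ℤ)), IsCoprime i (n:ℤ)) ∧
    (∀ η : ℝ, 0 < η → ∃ δ : ℝ, 0 < δ ∧ ∃ C : ℝ, ∀ n : ℕ, 1 < n →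
      η * Real.log (n.primeFactors.card : ℝ)
          ≤ ∑ p ∈ (Finset.range (n.primeFactors.card + 1)).filter
              (fun p => p.Prime ∧ ¬ p ∣ n), Real.log p / p →
      ∃ m : ℕ, (m:ℝ) ≤ C * (n.primeFactors.card : ℝ) ^ (2 - δ) ∧
        ∀ a : ℤ, ∃ i ∈ Set.Ico a (a + (m:ℤ)), IsCoprime i (n:ℤ)) := by
  obtain ⟨c, hc, C, hC, N, h⟩ := Vale.Agent.P013.jacobsthal_deficit_bound
  refine ⟨⟨c, hc, C, N, h⟩, ⟨max C ((N:ℝ) / c), fun n hn hΔ => ?_⟩, fun η hη => ?_⟩
  · obtain ⟨m, hm, hi⟩ := h n hn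
    refine ⟨m, hm.trans ?_, hi⟩
    set k := (n.primeFactors.card : ℝ)
    set Δ := ∑ p ∈ (Finset.range (n.primeFactors.card + 1)).filter
              (fun p => p.Prime ∧ ¬ p ∣ n), Real.log p / p
    have hk : (1:ℝ) ≤ k := by
      have := Finset.card_pos.2 (Nat.nonempty_primeFactors.2 hn)
      exact Nat.one_le_cast.2 this
    have hu : 1 ≤ Real.log (3 * k) := by
      rw [Real.le_log_iff_exp_le (by linarith)]
      linarith [Real.exp_one_lt_d9]
    set u := Real.log (3 * k)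
    have hlu : 0 ≤ Real.log u := Real.log_nonneg hu
    have h1 : (N:ℝ) * Real.log u ≤ c * Δ := by
      have h2 := mul_le_mul_of_nonneg_right (le_max_right C ((N:ℝ) / c)) hlu
      have h3 := mul_le_mul_of_nonneg_left (h2.trans hΔ) hc.le
      rwa [← mul_assoc, mul_div_cancel₀ _ hc.ne'] at h3
    have h4 : u ^ N * Real.exp (-c * Δ) ≤ 1 := by
      rw [← Real.exp_log (show 0 < u by linarith), ← Real.exp_nat_mul, ← Real.exp_add]
      exact Real.exp_le_one_iff.2 (by linarith)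
    calc C * k ^ 2 * u ^ N * Real.exp (-c * Δ) = C * k ^ 2 * (u ^ N * Real.exp (-c * Δ)) := by ring
      _ ≤ C * k ^ 2 := mul_le_of_le_one_right (by positivity) h4
      _ ≤ max C ((N:ℝ) / c) * k ^ 2 :=
          mul_le_mul_of_nonneg_right (le_max_left _ _) (by positivity)
  · set δ := c * η / 2 with hδ
    have hδ0 : 0 < δ := by positivity
    set ε := δ / ((N:ℝ) + 1) with hε
    have hε0 : 0 < ε := by positivity
    refine ⟨δ, hδ0, C * (1 / ε) ^ N * 3 ^ δ, fun n hn hΔ => ?_⟩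
    obtain ⟨m, hm, hi⟩ := h n hn
    refine ⟨m, hm.trans ?_, hi⟩
    set k := (n.primeFactors.card : ℝ)
    set Δ := ∑ p ∈ (Finset.range (n.primeFactors.card + 1)).filter
              (fun p => p.Prime ∧ ¬ p ∣ n), Real.log p / p
    have hk : (1:ℝ) ≤ k := by
      have := Finset.card_pos.2 (Nat.nonempty_primeFactors.2 hn)
      exact Nat.one_le_cast.2 this
    have hk0 : 0 < k := by linarith
    have h1 : Real.exp (-c * Δ) ≤ k ^ (-(2 * δ)) := by
      rw [Real.rpow_def_of_pos hk0]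
      refine Real.exp_le_exp.2 ?_
      have h2 := mul_le_mul_of_nonneg_left hΔ hc.le
      rw [show 2 * δ = c * η by rw [hδ]; ring]
      linarith
    have h3 : Real.log (3 * k) ^ N ≤ (1 / ε) ^ N * ((3:ℝ) ^ δ * k ^ δ) := by
      have hl : Real.log (3 * k) ≤ (3 * k) ^ ε / ε := Real.log_le_rpow_div (by linarith) hε0
      have hl0 : 0 ≤ Real.log (3 * k) := Real.log_nonneg (by linarith)
      calc Real.log (3 * k) ^ N ≤ ((3 * k) ^ ε / ε) ^ N := pow_le_pow_left₀ hl0 hl N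
        _ = (1 / ε) ^ N * (3 * k) ^ (ε * N) := by
            rw [div_pow, one_div_pow, ← Real.rpow_natCast ((3 * k) ^ ε) N,
              ← Real.rpow_mul (by linarith)]
            ring
        _ ≤ (1 / ε) ^ N * (3 * k) ^ δ := by
            refine mul_le_mul_of_nonneg_left (Real.rpow_le_rpow_of_exponent_le (by linarith) ?_)
              (by positivity)
            rw [hε, div_mul_eq_mul_div, div_le_iff₀ (by positivity)]
            linarith
        _ = _ := by rw [Real.mul_rpow (by norm_num) hk0.le]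
    calc C * k ^ 2 * Real.log (3 * k) ^ N * Real.exp (-c * Δ)
        ≤ C * k ^ 2 * ((1 / ε) ^ N * ((3:ℝ) ^ δ * k ^ δ)) * k ^ (-(2 * δ)) := by
          refine mul_le_mul (mul_le_mul_of_nonneg_left h3 (by positivity)) h1
            (Real.exp_pos _).le (by positivity)
      _ = C * (1 / ε) ^ N * 3 ^ δ * (k ^ (2:ℝ) * k ^ δ * k ^ (-(2 * δ))) := by
          rw [Real.rpow_two]; ring
      _ = _ := by
          rw [← Real.rpow_add hk0, ← Real.rpow_add hk0]
          congr 2; ring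

end Vale.Agent.Results.P013.MissingPrimes
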