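import Vale.Agent.P013.Sparse

/-! Vaughan's suggested estimate for moduli with few small prime factors (P013). -/

open Real Finset

namespace Vale.Agent.Results.P013.SparsePrimeSets

theorem result :
    ∀ ε : ℝ, 0 < ε → ∃ κ : ℝ, 0 < κ ∧ ∃ C : ℝ, ∀ n : ℕ, 1 < n →
      ∑ p ∈ (Finset.range (n.primeFactors.card + 1)).filter (fun p => p.Prime ∧ p ∣ n),
          Real.log p / p ≤ κ * Real.log (n.primeFactors.card : ℝ) →
      ∃ m : ℕ, (m:ℝ) ≤ C * (n.primeFactors.card : ℝ) ^ (1 + ε) ∧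
        ∀ a : ℤ, ∃ i ∈ Set.Ico a (a + (m:ℤ)), IsCoprime i (n:ℤ) :=
  fun ε hε => Vale.Agent.P013.jacobsthal_sparse_bound ε hε

end Vale.Agent.Results.P013.SparsePrimeSets
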